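import Vale.Agent.P144E.Basic
import Vale.Agent.P144D.U.Dom
import Vale.Agent.P144D.B.Gap
import Vale.Agent.P144D.B.Shr
import Vale.Agent.P144D.B.Bd
import Vale.Agent.P144D.PS.Box
import Vale.Agent.P144Z.R7.Main
import Vale.Agent.P144Z.S.Main

/-!
Reentrant corners: from finite sets of sites to domains of the plane.
-/

namespace Vale.Agent.P144Z

open Finset Filter Topology Vale.Agent.P144 U2D

namespace ELat

theorem potSets_mono {R R' : ℕ} (h : R ≤ R') : potSets R ⊆ potSets R' := by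
  have h1 : (R : ℤ) ≤ R' := by exact_mod_cast h
  have h2 : Finset.Icc (-(R : ℤ)) R ⊆ Finset.Icc (-(R' : ℤ)) R' := Icc_subset_Icc (by omega) h1
  exact filter_subset_filter _ (powerset_mono.2 (product_subset_product h2 h2))

theorem diff {J lam β : ℝ} (hS : RawStmt) {q : Par} {Zσ Zε α κ : ℝ} (hκ : 0 < κ)
    (hL : LatOKW q Zσ Zε α κ) (hJ : 0 < J) (hV : IsPotential q.V) (hμ : q.μ = β * lam)
    (hx : q.x = Real.exp (-(2 * β * J))) {D : Set ℂ} (hD : TameW α D) {b : Option (ℝ → Config)}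
    (hb : StdBC b) : Diff D (crit J D b) (inDom J lam q.V β D b) Zσ Zε := by
  intro p hp
  obtain ⟨T, hT, h1⟩ := hS α D hD
  obtain ⟨ρ, hρ, h1⟩ := h1 κ hκ
  obtain ⟨s, hs, hsρ, h2⟩ := spins hD.1 hp hρ
  rw [Metric.tendsto_nhds]
  intro ε hε
  set K := ((s / 2) ^ (-(1 / 8) : ℝ)) ^ p.n * (s / 2)⁻¹ ^ p.m with hK
  have hK0 : 0 < K := by positivity
  obtain ⟨r₀, hr⟩ := hL J lam β hJ hμ hx p.n p.m ⌈2 * T / s⌉₊ (ε / (2 * K)) (by positivity)
  have h3 : ∀ᶠ a in 𝓝[>] (0 : ℝ), a < s / (2 * (r₀ + 1)) :=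
    nhdsWithin_le_nhds (gt_mem_nhds (by positivity))
  filter_upwards [h2, h3, self_mem_nhdsWithin] with a ⟨hrc, hP⟩ ha ha0
  have ha0' : 0 < a := ha0
  obtain ⟨d1, d2, d3⟩ := h1 a ha0'
  have r1 : (⌊s / a⌋₊ : ℝ) ≤ s / a := Nat.floor_le (by positivity)
  generalize ⌊s / a⌋₊ = r at hrc hP r1
  have hr0 : r₀ + 1 ≤ r := by
    have : (r₀ + 1 : ℝ) ≤ s / (2 * a) := by
      rw [lt_div_iff₀ (by positivity)] at ha
      rw [le_div_iff₀ (by positivity)]
      nlinarith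
    exact_mod_cast this.trans hrc
  have hbox : ∀ v ∈ disc D a, zd v 0 ≤ ⌈2 * T / s⌉₊ * r := fun v hv => by
    have : (zd v 0 : ℝ) ≤ (⌈2 * T / s⌉₊ : ℝ) * r := by
      calc (zd v 0 : ℝ) ≤ T / a := by
            rw [le_div_iff₀' ha0']
            exact d2 v hv
        _ = 2 * T / s * (s / (2 * a)) := by field_simp
        _ ≤ _ := mul_le_mul (Nat.le_ceil _) hrc (by positivity) (by positivity)
    exact_mod_cast this
  obtain ⟨P, hsh⟩ := d3 r (by omega) (((le_div_iff₀' ha0').1 r1).trans hsρ)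
  have key := fun b hb => hr r (by omega) (disc D a) P b _ _ p.j hb hsh hbox (hP _ d1)
  have k1 : |lcor (inDom J lam q.V β D b a) (fun i => fl a (p.x i)) (fun k => fl a (p.y k)) p.j -
      Zσ ^ p.n * Zε ^ p.m * lcor (crit J D b a) (fun i => fl a (p.x i)) (fun k => fl a (p.y k))
        p.j| ≤ ε / (2 * K) * (r : ℝ) ^ (-((p.n : ℝ) / 8)) / (r : ℝ) ^ p.m := by
    rcases hb with rfl | rfl | rfl
    · exact key none (Or.inl rfl)
    · exact key _ (Or.inr rfl)
    · have k2 := key _ (Or.inr rfl)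
      have e1 := lcor_not (J := J) (lam := lam) (β := β) hV (disc D a) (fun _ => true)
        (fun i => fl a (p.x i)) (fun k => fl a (p.y k)) p.j
      have e2 := lcor_not (J := J) (lam := 0) (β := Kc / J) U1.pot_zero (disc D a) (fun _ => true)
        (fun i => fl a (p.x i)) (fun k => fl a (p.y k)) p.j
      change |lcor (gibbs J lam q.V β (some fun _ => !true) (disc D a)) _ _ _ - Zσ ^ p.n *
        Zε ^ p.m * lcor (gibbs J 0 (fun _ => 0) (Kc / J) (some fun _ => !true) (disc D a)) _ _ _| ≤ _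
      rw [e1, e2, mul_left_comm, ← mul_sub, abs_mul, abs_pow, abs_neg, abs_one, one_pow, one_mul]
      exact k2
  have k2 := U4.scale ha0' hs hrc p.n p.m
  rw [Real.dist_eq, sub_zero]
  unfold crit inDom at *
  rw [corr_eq, corr_eq, mul_left_comm, ← mul_sub, abs_mul, abs_of_nonneg (by positivity)]
  refine lt_of_le_of_lt (mul_le_mul_of_nonneg_left k1 (by positivity)) ?_
  rw [← hK, neg_div] at k2
  calc _ = ε / (2 * K) * ((a ^ (-(1 / 8) : ℝ)) ^ p.n * a⁻¹ ^ p.m / r ^ p.m *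
        (r : ℝ) ^ (-((p.n : ℝ) / 8))) := by ring
    _ ≤ ε / (2 * K) * K := mul_le_mul_of_nonneg_left k2 (by positivity)
    _ = ε / 2 := by field_simp
    _ < ε := half_lt_self hε

end ELat

/-- Q1 in the plane and in the domains with convex and reentrant corners. -/
theorem domQW_of (hW : StepW) (hG : GenW) (hM : LatStmtW) (hT : RawStmt) : DomQW := by
  obtain ⟨LX, hX⟩ := boxStmt (bdStmt_of shrStmt) gapStmt
  intro α hα J hJ V hV ε hε
  obtain ⟨LB, hB⟩ := bulkStmt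
  obtain ⟨LS, hS⟩ := stateStmt
  obtain ⟨ε₀, hε₀, hW⟩ := hW
  obtain ⟨LW, hW⟩ := hW ε₀ hε₀ le_rfl
  obtain ⟨LG, hG⟩ := hG
  obtain ⟨t₀, hM⟩ := hM α hα
  obtain ⟨LM, hM⟩ := hM ε₀ hε₀
  set L := LB + LS + LM + LX + LW + LG with hL
  obtain ⟨ηB, hηB, hB⟩ := hB L (by omega)
  obtain ⟨ηS, hηS, hS⟩ := hS L (by omega)
  obtain ⟨κ, hκ, hM⟩ := hM L (by omega)
  obtain ⟨ηX, hηX, hX⟩ := hX L (by omega)
  obtain ⟨C, hC, hW⟩ := hW L (by omega)
  obtain ⟨hG0, hG⟩ := hG L (by omega) C hC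
  obtain ⟨ηM, hηM, hG⟩ := hG (min ε (1 / 2)) (by positivity)
  obtain ⟨η₁, hη₁, hc⟩ : ∃ η₁ > 0, ∀ x : ℝ, |x - tc| ≤ η₁ →
      |-Real.log x / (2 * J) - Kc / J| < ε := by
    have htc : tc ≠ 0 := by
      rw [U4.tc_eq]
      exact (Real.exp_pos _).ne'
    have h1 : ContinuousAt (fun x : ℝ => -Real.log x / (2 * J)) tc :=
      ((Real.continuousAt_log htc).neg).div_const _
    obtain ⟨δ, hδ, h2⟩ := Metric.continuousAt_iff.1 h1 ε hε
    refine ⟨δ / 2, by positivity, fun x hx => ?_⟩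
    have h3 := h2 (x := x) (by rw [Real.dist_eq]; linarith)
    have e : -Real.log tc / (2 * J) = Kc / J := by
      rw [U4.tc_eq, Real.log_exp]
      field_simp
    rwa [Real.dist_eq, e] at h3
  obtain ⟨R₁, hR₁⟩ := U4.exists_R hV
  have hR : ∀ B, V B ≠ 0 → (0, 0) ∈ B → B ∈ potSets (R₁ + t₀) := fun B h1 h2 =>
    ELat.potSets_mono (Nat.le_add_right _ _) (hR₁ B h1 h2)
  obtain ⟨δS, hδS, hS1⟩ := hS (R₁ + t₀)
  obtain ⟨δ0, hδ0, hS0⟩ := hS 0
  obtain ⟨δM, hδM, hG⟩ := hG (R₁ + t₀)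
  obtain ⟨δX, hδX, hX⟩ := hX (R₁ + t₀)
  set η := min (min ηB ηS) (min (min ηM ηX) η₁) with hη
  obtain ⟨κ₀, hκ₀, hB⟩ := hB η (by positivity) ((min_le_left _ _).trans (min_le_left _ _)) V _ hV
    hR (min (min δS 1) (min δM δX)) (by positivity)
  refine ⟨2 * J * κ₀, by positivity, fun lam hlam => ?_⟩
  obtain ⟨x, Z, hq⟩ := hB (lam / (2 * J)) (by
    rw [abs_div, abs_of_pos (by positivity : 0 < 2 * J), div_lt_iff₀ (by positivity)]
    linarith)
  set q : Par := ⟨V, R₁ + t₀, lam / (2 * J) * (-Real.log x), x, Z⟩ with hqdef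
  have hx0 : 0 < x := lt_of_lt_of_le (by norm_num) hq.ok.x_lo
  have hx1 : x < 1 := lt_of_le_of_lt hq.ok.x_hi (by norm_num)
  have hrel : U4.Rel J lam (-Real.log x / (2 * J)) q :=
    { pot := hV
      range := hR
      mu := by
        change lam / (2 * J) * (-Real.log x) = _
        ring
      x := by
        change x = _
        rw [show -(2 * (-Real.log x / (2 * J)) * J) = Real.log x by field_simp, Real.exp_log hx0]
      st := hS1 q rfl (hq.mono ((min_le_left _ _).trans (min_le_right _ _))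
        ((min_le_left _ _).trans (min_le_left _ _))) }
  have hrel0 := U4.rel_zero hJ (hS0 par0 rfl (crit_par0 L ηS δ0 hηS.le hδ0.le))
  obtain ⟨Zσ, Zε, z1, z2, hmain, hU⟩ := hG q rfl
    (hq.mono ((min_le_right _ _).trans ((min_le_left _ _).trans (min_le_left _ _)))
      ((min_le_right _ _).trans (min_le_left _ _)))
  have hlat := hM q Zσ Zε R₁ hq.ok
    (le_trans hq.small ((min_le_left _ _).trans (min_le_right _ _))) le_rfl hR₁ (hU _ _ hW)
    (hG0 t₀ _ _ hW)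
  have hbox := hX q rfl
    (hq.mono ((min_le_right _ _).trans ((min_le_left _ _).trans (min_le_right _ _)))
      ((min_le_right _ _).trans (min_le_right _ _))) J lam _ hrel
  obtain ⟨μ, hμ, hμ'⟩ := U1.plane_of_torus hJ hV hrel.spin
    fun p hp hn e he => U4.est hJ hrel hrel0 hmain hp hn he
  obtain ⟨z3, z4⟩ := lt_min_iff.1 z1
  obtain ⟨z5, z6⟩ := lt_min_iff.1 z2
  refine ⟨-Real.log x / (2 * J), div_pos (neg_pos.2 (Real.log_neg hx0 hx1)) (by positivity),
    Zσ, Zε, hc x (hq.x.trans ((min_le_right _ _).trans (min_le_right _ _))), z3, z5, ?_, ?_,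
    ⟨μ, hbox μ hμ, hμ, hμ'⟩, fun D hD b hb => ?_⟩
  · rintro rfl
    norm_num at z4
  · rintro rfl
    norm_num at z6
  · have h := ELat.diff hT hκ hlat hJ hV hrel.mu hrel.x hD hb
    exact ⟨h, ident h⟩

end Vale.Agent.P144Z
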