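import Vale.Agent.P144E.Lat.Core

/-!
Reentrant corners: universality for finite sets of sites.
-/

namespace Vale.Agent.P144Z

open Finset P144 UL

namespace ELat

theorem le_mul_div {Q r : ℕ} (hQ : 1 ≤ Q) (h : Q ≤ r) : r ≤ 2 * Q * (r / Q) := by
  have h1 := Nat.div_add_mod r Q
  have h2 : r % Q < Q := Nat.mod_lt r hQ
  have h3 : Q * 1 ≤ Q * (r / Q) := Nat.mul_le_mul_left Q ((Nat.le_div_iff_mul_le hQ).2 (by omega))
  rw [mul_assoc]
  omega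

theorem holes_mono {Λ : Finset Site} {T r r' H : ℕ} {a : Site} {hs : Fin H → Site}
    (h : Holes Λ T r a hs) (hr : r' ≤ r) : Holes Λ T r' a hs :=
  ⟨h.box, h.a_le, h.h_le, fun v hv => h.a_out v (hv.trans hr),
    fun i v hv => h.h_out i v (hv.trans hr), fun i => hr.trans_lt (h.ah i),
    fun i i' e => hr.trans_lt (h.hh i i' e)⟩

theorem spins_dig {Λ P : Finset Site} {r r' t : ℕ} {ι : Type} {x : ι → Site} (h : Spins Λ r x)
    (hP : ∀ p ∈ P, ∃ v, v ∉ Λ ∧ zd v p ≤ t) (hr : r' + 2 * t ≤ r) : Spins (dig Λ P t) r' x := by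
  refine ⟨fun i v hv => mem_dig.2 ⟨h.ins i v (by omega), fun p hp => ?_⟩,
    fun i i' e => lt_of_le_of_lt (by omega) (h.sep i i' e)⟩
  obtain ⟨w, h1, h2⟩ := hP p hp
  by_contra h3
  have h4 := GeoA.zd_tri w p (x i)
  have h5 := GeoA.zd_tri p v (x i)
  rw [GeoA.zd_comm p v] at h5
  exact h1 (h.ins i w (by omega))

end ELat

open ELat in
/-- Universality on the lattice. -/
theorem latStmtW_of (hB : BdStmtW) (hK : KStmtW) (hO : HolesW) (hD : DigStmt) (hH : HalfStmt) :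
    LatStmtW := by
  intro α hα
  obtain ⟨t, N, Q, ht, hQ, κ₀, hκ₀, hD⟩ := hD α hα
  obtain ⟨Qb, hB⟩ := hB α hα N
  refine ⟨t + 1, fun ε₀ hε₀ => ?_⟩
  obtain ⟨LB, hB⟩ := hB ε₀ hε₀
  refine ⟨max 2 LB, fun L hL => ?_⟩
  have hL2 : 2 ≤ L := le_of_max_le_left hL
  obtain ⟨κ, hκ, hB⟩ := hB L (le_of_max_le_right hL)
  refine ⟨min κ κ₀, by positivity, fun q Zσ Zε R₁ hq hsm hR hV hU hU0 J lam β hJ hμ hx n m Λ₀ ε
    hε => ?_⟩
  have rq : Rel J lam β q := ⟨hq.pot, hq.range, hμ, hx⟩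
  have r0 : Rel J 0 (Kc / J) (parR (t + 1)) := ⟨U1.pot_zero, fun _ h => absurd rfl h,
    (mul_zero _).symm, by
      rw [mul_assoc, div_mul_cancel₀ _ hJ.ne']
      exact U4.tc_eq⟩
  obtain ⟨H₀, Qh, hQh, hO⟩ := hO N ((Λ₀ + 1) * (2 * Q))
  obtain ⟨c, hc⟩ : ∃ c : ℕ, c = 2 * Q * (2 * Qh * (2 * 2 * ((Qb + 17) * L))) := ⟨_, rfl⟩
  have c0 : 0 < c := by rw [hc]; positivity
  have cL : (1 : ℝ) ≤ c := by exact_mod_cast c0
  set z : ℝ := |Zσ ^ n * Zε ^ m| with hz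
  have z0 : 0 ≤ z := abs_nonneg _
  obtain ⟨J₁, c₁⟩ := half hK hH hL2 hU ht (by omega) hV hq.x_lo hq.x_hi hsm hJ rq N n m H₀
    (2 * (Λ₀ + 1) * c) ((2 * Λ₀ + 6 + 1) ^ 2) (ε := ε / (c : ℝ) ^ (n + m) / (z + 1))
    (by positivity)
  obtain ⟨J₀, c₀⟩ := half (R₁ := 0) hK hH hL2 hU0 ht le_rfl (fun _ h => absurd rfl h)
    (le_trans (by norm_num) FM.tc_lo) C.tc_le (by simp [Par.Small, parR]) hJ r0 N n m H₀
    (2 * (Λ₀ + 1) * c) ((2 * Λ₀ + 6 + 1) ^ 2) (ε := ε / (c : ℝ) ^ (n + m) / (z + 1))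
    (by positivity)
  obtain ⟨s₀, hs₀⟩ : ∃ s₀, s₀ = (Qb + 17) * sc L (max (max J₀ J₁) 1) := ⟨_, rfl⟩
  refine ⟨Q * (Qh * (2 * (s₀ + 1))) + 4 * t, fun r hr Λ P b x y j hb hS hΛ hs => ?_⟩
  have f1 : Qh * (2 * (s₀ + 1)) ≤ r / Q :=
    (Nat.le_div_iff_mul_le hQ).2 (by rw [mul_comm]; omega)
  have f2 : 2 * (s₀ + 1) ≤ r / Q / Qh := (Nat.le_div_iff_mul_le hQh).2 (by rw [mul_comm]; omega)
  have f3 : Qh ≤ r / Q := le_trans (Nat.le_mul_of_pos_right _ (by omega)) f1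
  have f4 : Q ≤ r := (Nat.le_mul_of_pos_right Q (by omega : 0 < r / Q)).trans (Nat.mul_div_le r Q)
  have f5 : r / Q ≤ r := Nat.div_le_self _ _
  have f6 : r / Q / Qh ≤ r / Q := Nat.div_le_self _ _
  have g1 := le_mul_div hQ f4
  have g2 := le_mul_div hQh f3
  have g3 := le_mul_div (Q := 2) (r := r / Q / Qh) (by norm_num) (by omega)
  obtain ⟨ρ, hρ⟩ : ∃ ρ, ρ = r / Q / Qh / 2 := ⟨_, rfl⟩
  rw [← hρ] at g3
  have hx' : ∀ i, x i ∈ Λ := fun i => hs.ins (Sum.inl i) _ (by simp [zd_self])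
  have hy' : ∀ k, y k ∈ Λ ∧ y k + dir (j k) ∈ Λ := fun k =>
    ⟨hs.ins (Sum.inr k) _ (by simp [zd_self]),
      hs.ins (Sum.inr k) _ ((zd_add_dir _ _).trans (by omega))⟩
  have r0' : (0 : ℝ) < r := by exact_mod_cast (by omega : 0 < r)
  by_cases ho : b = none ∧ Odd n
  · obtain ⟨rfl, hn⟩ := ho
    rw [lcor_odd hq.pot hn hx' hy', lcor_odd U1.pot_zero hn hx' hy', mul_zero, sub_zero,
      abs_zero]
    positivity
  obtain ⟨J', n1, n2, n3⟩ := Mn.exists_scale (c := Qb + 17) (J := max (max J₀ J₁) 1) (M := ρ) hL2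
    (by omega) (by omega)
  rw [show sc L (J' + 1) = L * sc L J' by unfold sc; ring, ← mul_assoc] at n3
  rw [add_mul] at n2
  have s9 := sc_ge (J := J') hL2
  have e1 : (Λ₀ + 1) * r = Λ₀ * r + r := by ring
  have e4 : r ≤ c * sc L J' := by
    rw [hc]
    simp only [mul_assoc] at g1 g2 g3 n3 ⊢
    refine g1.trans (by gcongr; refine g2.trans (by gcongr; exact g3.trans (by gcongr)))
  have e5 : 2 * ((Λ₀ + 1) * r) ≤ 2 * (Λ₀ + 1) * c * sc L J' := by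
    simp only [mul_assoc]
    gcongr
  have e6 : (Λ₀ + 1) * r ≤ (Λ₀ + 1) * (2 * Q) * (r / Q) := by
    rw [mul_assoc]
    gcongr
  have e7 : 2 * ((Λ₀ + 1) * r + 2) ≤ (2 * Λ₀ + 6) * (r + 1) := by nlinarith
  set T := (Λ₀ + 1) * r with hT
  have hΛ' : ∀ v ∈ Λ, zd v 0 ≤ T := fun v hv => (hΛ v hv).trans (by omega)
  have : NeZero (64 * (2 * T)) := ⟨by omega⟩
  set M := 64 * (2 * T) with hMd
  obtain ⟨p1, sW⟩ := hD _ (by positivity) (min_le_right κ κ₀) Λ P r T hS f4 hΛ'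
  have sW' := (sW M (by omega)).mono (min_le_left κ κ₀) le_rfl
  obtain ⟨fr, H, hH', a, hs', rfl, h1, hcn, hfr⟩ : ∃ fr : Bool, ∃ H ≤ H₀, ∃ a,
      ∃ hs' : Fin H → Site, b = (if fr then none else some fun _ => true) ∧
      Holes (dig Λ P t) (2 * T) ρ a hs' ∧ (fr = false → Cn M (dig Λ P t) a hs') ∧
      (fr = true → H = 0 ∧ Even n) := by
    obtain ⟨H, hH', a, hs', h1, hcn⟩ := hO (dig Λ P t) T (r / Q) M sW'.toRgh f3 (by omega) e6
      (fun v hv => hΛ' v (mem_dig.1 hv).1) (by omega)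
    have h2 := holes_mono h1 (r' := ρ) (by omega)
    rcases hb with rfl | rfl
    · exact ⟨true, 0, Nat.zero_le _, a, Fin.elim0, rfl, ⟨h2.box, h2.a_le, fun i => i.elim0,
        h2.a_out, fun i => i.elim0, fun i => i.elim0, fun i => i.elim0⟩, by simp,
        fun _ => ⟨rfl, Nat.not_odd_iff_even.1 fun h => ho ⟨rfl, h⟩⟩⟩
    · exact ⟨false, H, hH', a, hs', rfl, h2, fun _ => hcn, by simp⟩
  have hbd : ∀ B, Str (regOf M (dig Λ P t) fr).pw B (ρ - 1) →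
      QW L ε₀ M ((regOf M (dig Λ P t) fr).pw * B) J' := fun B h =>
    hB M (regOf M (dig Λ P t) fr) _ B (ρ - 1) J' (sW'.mono le_rfl (by omega)) h (by omega)
      (le_of_max_le_right n1) (by omega)
  have hsp := spins_dig (r' := ρ) hs (fun p hp => (p1 p hp).2) (by omega)
  have p2 : ∀ p ∈ P, zd p 0 ≤ 2 * T := fun p hp => (p1 p hp).1.trans (by omega)
  have p3 : ∀ p ∈ P, ∀ p' ∈ P, p ≠ p' → ρ < zd p p' := fun p hp p' hp' e =>
    lt_of_le_of_lt (by omega) (hS.sep p hp p' hp' e)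
  have p4 := B5a2.card_net (fun p hp => (p1 p hp).1) hS.sep e7
  have d₁ := c₁ J' (le_of_max_le_right (le_of_max_le_left n1)) M Λ P fr _ _ H x y j a hs' hH'
    (sW'.toRgh.mono (by omega)) hbd h1 hcn hsp hfr (by omega) (by omega) e5 rfl p2 p3 p4
  have d₀ := c₀ J' (le_of_max_le_left (le_of_max_le_left n1)) M Λ P fr _ _ H x y j a hs' hH'
    (sW'.toRgh.mono (by omega)) hbd h1 hcn hsp hfr (by omega) (by omega) e5 rfl p2 p3 p4
  rw [one_pow, one_pow, one_mul, one_mul] at d₀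
  change _ * |lcor (gibbs J 0 (fun _ => 0) _ _ _) _ _ _ - _| ≤ _ at d₀
  set ℓ : ℝ := ((sc L J' : ℕ) : ℝ) with hℓ
  have l0 : 0 < ℓ := by rw [hℓ]; exact_mod_cast (by omega : 0 < sc L J')
  have rs := rescale l0 r0' cL (by rw [hℓ]; exact_mod_cast e4) n m
  have w0 : 0 < ℓ ^ ((n : ℝ) / 8) * ℓ ^ m := by positivity
  generalize ℓ ^ ((n : ℝ) / 8) * ℓ ^ m = w at d₁ d₀ rs w0
  generalize UL.psi _ _ _ = ψ at d₁ d₀
  generalize lcor (gibbs J lam q.V β _ Λ) x y j = u at d₁ ⊢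
  generalize lcor (gibbs J 0 (fun _ => 0) (Kc / J) _ Λ) x y j = u₀ at d₀ ⊢
  have k1 : |u - Zσ ^ n * Zε ^ m * u₀| ≤ |u - Zσ ^ n * Zε ^ m * ψ| + z * |u₀ - ψ| := by
    rw [hz, ← abs_mul, show u - Zσ ^ n * Zε ^ m * u₀ =
      u - Zσ ^ n * Zε ^ m * ψ - Zσ ^ n * Zε ^ m * (u₀ - ψ) by ring]
    exact abs_sub _ _
  have k2 : w * |u - Zσ ^ n * Zε ^ m * u₀| ≤ ε / (c : ℝ) ^ (n + m) := by
    have k3 := mul_le_mul_of_nonneg_left d₀ z0
    have k4 := mul_le_mul_of_nonneg_left k1 w0.le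
    have k5 : ε / (c : ℝ) ^ (n + m) = ε / (c : ℝ) ^ (n + m) / (z + 1) * (z + 1) := by
      field_simp
    rw [k5]
    nlinarith
  rw [← le_inv_mul_iff₀ w0] at k2
  refine k2.trans ((mul_le_mul_of_nonneg_right rs (by positivity)).trans (le_of_eq ?_))
  field_simp

end Vale.Agent.P144Z
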