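import Vale.Agent.P144E.Basic
import Vale.Agent.P144D.U.Lat

/-!
Reentrant corners: the estimates for the sums over the sectors.
-/

namespace Vale.Agent.P144Z

open Finset P144 UL

theorem CoreAt.monoB {M : ℕ} [NeZero M] {H m n : ℕ} {q : Par} {Zσ Zε γ δ : ℝ} {R : Reg M}
    {a : Site} {hs : Fin H → Site} {y : Fin m → Site} {j : Fin m → Fin 2} {x : Fin n → Site}
    {ℓ B B' ε : ℝ} (h : CoreAt q Zσ Zε γ δ R a hs y j x ℓ B ε) (hB : B ≤ B') :
    CoreAt q Zσ Zε γ δ R a hs y j x ℓ B' ε := fun u h1 h2 h3 =>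
  ⟨fun t => ⟨((h u h1 h2 h3).1 t).1, ((h u h1 h2 h3).1 t).2.trans hB⟩, (h u h1 h2 h3).2⟩

namespace ELat

theorem core (hK : KStmtW) {Q : Cls} {q : Par} {Zσ Zε γ δ : ℝ} {L : ℕ} (hL : 2 ≤ L)
    (hM : MainQ Q q Zσ Zε L γ δ) (hE : EnQ Q q L γ δ) (N n m H₀ Λ₁ : ℕ) :
    ∃ B : ℝ, ∀ ε > 0, ∃ J₀ : ℕ, ∀ J ≥ J₀, ∀ (M : ℕ) [NeZero M] (Λ : Finset Site) (fr : Bool)
      (T r H : ℕ) (x : Fin n → Site) (y : Fin m → Site) (j : Fin m → Fin 2) (a : Site)
      (hs : Fin H → Site), H ≤ H₀ → Rgh (regOf M Λ fr).In N r →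
      (∀ B, Str (regOf M Λ fr).pw B (r - 1) → Q M ((regOf M Λ fr).pw * B) J) → Holes Λ T r a hs →
      Spins Λ r (Sum.elim x y) → (fr = true → H = 0 ∧ Even n) → 16 * sc L J + 1 ≤ r → r ≤ T →
      T ≤ Λ₁ * sc L J → M = 64 * T →
        CoreAt q Zσ Zε γ δ (regOf M Λ fr) a hs y j x (sc L J) B ε := by
  obtain ⟨CK, Γ, h, hCK, hΓ, hh, r₀, hK⟩ := hK N n Λ₁
  obtain ⟨C, hM⟩ := hM (n + H₀ + 1 + m) (64 * Λ₁) Γ h hΓ hh
  refine ⟨2 ^ H₀ * (|C| * CK), fun ε hε => ?_⟩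
  obtain ⟨J₀, hM⟩ := hM (ε / (2 ^ H₀ * (CK + 1))) (by positivity)
  obtain ⟨J₁, hE⟩ := hE (n + H₀ + 1 + m) (64 * Λ₁) Γ hΓ ε hε
  refine ⟨max (max J₀ J₁) (r₀ + 1), fun J hJ M _ Λ fr T r H x y j a hs hH hS hB h1 h2 hfr r1 r2 r3
    hMT u d1 d3 d2 => ?_⟩
  have l1 : 8 * J + 8 ≤ sc L J := sc_ge hL
  have l2 : r₀ + 1 ≤ J := le_of_max_le_right hJ
  set ℓ := sc L J with hℓ
  set R := regOf M Λ fr with hR
  have l0 : (0 : ℝ) < ℓ := by exact_mod_cast (by omega : 0 < ℓ)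
  have r4 : 8 * ℓ ≤ r - 3 := by omega
  have hx : Spins Λ r x := h2.comp Sum.inl_injective
  have hK' := fun S : Finset (Fin H) => hK M Λ fr T r ℓ H x a hs S hS h1 hx hfr (by omega)
    (by omega) (by omega) r2 r3 hMT.ge
  have dom : ∀ (t : Finset (Fin m)) (S : Finset (Fin H)),
      DomQ Q R.pw (spinG M a x * holeG M a hs S) (fun k : t => yE M y j k)
        (fun k : t => dE y j k) n L J (n + H₀ + 1 + m) (64 * Λ₁) Γ := by
    intro t S
    have hxy : Spins Λ r (Sum.elim x fun k : t => y k) := by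
      have := h2.comp (f := Sum.map id fun k : t => k.1)
        (Function.injective_id.sumMap Subtype.val_injective)
      rwa [Sum.elim_comp_map] at this
    obtain ⟨s1, -, -, -, s5, s6⟩ := str_reg (M := M) S h1 hx hfr (by omega) (by omega)
    have b0 := hB 1 (str_one _ _)
    rw [mul_one] at b0
    have sp := sepW_reg (M := M) S (fun k : t => j k) J h1 hxy hfr (by omega) (by omega)
    have cd : t.card ≤ m := by simpa using card_le_univ t
    exact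
      { P_ok := R.isP
        str := s1.mono (by omega)
        sep := ⟨fun f hf f' h' h'' => sp.ff f hf f' h' (h''.trans r4),
          fun k f hf => sp.fs k f (hf.trans r4), fun k k' hk => r4.trans_lt (sp.ss k k' hk)⟩
        lo := by omega
        hi := by rw [hMT, mul_assoc]; exact Nat.mul_le_mul_left _ r3
        bd := hB _ s1
        bd0 := b0
        gap := (hK' S).1
        card := by rw [Fintype.card_coe]; omega
        cnt := s6 }
  refine ⟨fun t => ?_, fun u' e1 e3 e2 k => hE J (le_of_max_le_right (le_of_max_le_left hJ)) M R.pw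
    _ u u' _ _ _ n (dom {k} ∅) d1 d2 d3 e1 e2 e3 ⟨k, mem_singleton_self k⟩⟩
  have key : ∀ S : Finset (Fin H),
      |mixC q u R.pw (spinG M a x * holeG M a hs S) (fun k : t => yE M y j k)
          (fun k : t => dE y j k) - Zσ ^ n * Zε ^ t.card * mixC par0 (R.cor par0) R.pw
          (spinG M a x * holeG M a hs S) (fun k : t => yE M y j k) (fun k : t => dE y j k)| ≤
        ε / (2 ^ H₀ * (CK + 1)) / (ℓ : ℝ) ^ t.card * (CK * (ℓ : ℝ) ^ (-((n : ℝ) / 8))) ∧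
      |mixC par0 (R.cor par0) R.pw (spinG M a x * holeG M a hs S) (fun k : t => yE M y j k)
          (fun k : t => dE y j k)| ≤ C / (ℓ : ℝ) ^ t.card * (CK * (ℓ : ℝ) ^ (-((n : ℝ) / 8))) := by
    intro S
    have := hM J (le_of_max_le_left (le_of_max_le_left hJ)) M R.pw _ u t (fun k : t => yE M y j k)
      (fun k : t => dE y j k) n (CK * (ℓ : ℝ) ^ (-((n : ℝ) / 8))) (dom t S) d1 d2 d3
      (by positivity) ((hK' S).2 _ _ _ _)
    rwa [Fintype.card_coe, ← R.cor_par0] at this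
  have cS : ((univ : Finset (Finset (Fin H))).card : ℝ) ≤ 2 ^ H₀ := by
    rw [card_univ, Fintype.card_finset, Fintype.card_fin]
    exact_mod_cast Nat.pow_le_pow_right (by norm_num) hH
  have w0 : 0 < (ℓ : ℝ) ^ ((n : ℝ) / 8) * (ℓ : ℝ) ^ t.card := by positivity
  have w1 : ∀ u : ℝ, (ℓ : ℝ) ^ ((n : ℝ) / 8) * (ℓ : ℝ) ^ t.card *
      (u / (ℓ : ℝ) ^ t.card * (CK * (ℓ : ℝ) ^ (-((n : ℝ) / 8)))) = u * CK := fun u => by
    rw [Real.rpow_neg l0.le]
    field_simp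
  have w2 : ∀ (f : Finset (Fin H) → ℝ) (u : ℝ), 0 ≤ u →
      (∀ S, |f S| ≤ u / (ℓ : ℝ) ^ t.card * (CK * (ℓ : ℝ) ^ (-((n : ℝ) / 8)))) →
      |(ℓ : ℝ) ^ ((n : ℝ) / 8) * (ℓ : ℝ) ^ t.card * ∑ S, f S| ≤ 2 ^ H₀ * (u * CK) := by
    intro f u hu hf
    rw [mul_sum]
    refine (abs_sum_le_sum_abs _ _).trans ((sum_le_card_nsmul _ _ (u * CK) fun S _ => ?_).trans ?_)
    · rw [abs_mul, abs_of_pos w0, ← w1]
      exact mul_le_mul_of_nonneg_left (hf S) w0.le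
    · rw [nsmul_eq_mul]
      exact mul_le_mul_of_nonneg_right cS (by positivity)
  constructor
  · have := w2 _ _ (by positivity) fun S => (key S).1
    rw [sum_sub_distrib, ← mul_sum] at this
    refine le_trans (le_of_eq (congrArg _ ?_)) (this.trans ?_)
    · unfold mx mxU
      ring
    · calc _ = ε * (CK / (CK + 1)) := by field_simp
        _ ≤ ε := mul_le_of_le_one_right hε.le (div_le_one_of_le₀ (by linarith) (by linarith))
  · exact w2 _ _ (abs_nonneg C) fun S => (key S).2.trans (by gcongr; exact le_abs_self C)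

/-- The correlations of the set in terms of the nearest-neighbour model on the dug set. -/
theorem half (hK : KStmtW) (hH : HalfStmt) {Q : Cls} {q : Par} {Zσ Zε : ℝ} {L R₁ t : ℕ}
    (hL : 2 ≤ L) (hU : UnivQ Q q Zσ Zε L) (ht : 1 ≤ t) (hR : t + R₁ + 1 ≤ q.R)
    (hV : ∀ B, q.V B ≠ 0 → (0, 0) ∈ B → B ∈ potSets R₁) (x1 : 1 / 4 ≤ q.x) (x2 : q.x ≤ 1 / 2)
    (hq : q.Small 1) {J lam β : ℝ} (hJ : 0 < J) (hr : Rel J lam β q) (N n m H₀ Λ₁ k₀ : ℕ)
    {ε : ℝ} (hε : 0 < ε) : ∃ J₀ : ℕ, ∀ J' ≥ J₀, ∀ (M : ℕ) [NeZero M] (Λ P : Finset Site)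
      (fr : Bool) (T r H : ℕ) (x : Fin n → Site) (y : Fin m → Site) (j : Fin m → Fin 2)
      (a : Site) (hs : Fin H → Site), H ≤ H₀ → Rgh (regOf M (dig Λ P t) fr).In N r →
      (∀ B, Str (regOf M (dig Λ P t) fr).pw B (r - 1) →
        Q M ((regOf M (dig Λ P t) fr).pw * B) J') → Holes (dig Λ P t) T r a hs →
      (fr = false → Cn M (dig Λ P t) a hs) → Spins (dig Λ P t) r (Sum.elim x y) →
      (fr = true → H = 0 ∧ Even n) → 16 * sc L J' + 1 ≤ r → r ≤ T → T ≤ Λ₁ * sc L J' →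
      M = 64 * T → (∀ p ∈ P, zd p 0 ≤ T) →
      (∀ p ∈ P, ∀ p' ∈ P, p ≠ p' → r < zd p p') → P.card ≤ k₀ →
        (sc L J' : ℝ) ^ ((n : ℝ) / 8) * (sc L J' : ℝ) ^ m *
          |lcor (gibbs J lam q.V β (if fr then none else some fun _ => true) Λ) x y j -
            Zσ ^ n * Zε ^ m * UL.psi (mx par0 (regOf M (dig Λ P t) fr) a hs y j Fin.elim0 ∅)
              (fun k => mx par0 (regOf M (dig Λ P t) fr) a hs y j Fin.elim0 {k})
              (mx par0 (regOf M (dig Λ P t) fr) a hs y j x)| ≤ ε := by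
  obtain ⟨γ, δ, θ, hθ, hΔ, hM, hE⟩ := hU
  obtain ⟨B₁, c₁⟩ := core hK hL hM hE N n m H₀ Λ₁
  obtain ⟨B₀, c₀⟩ := core hK hL hM hE N 0 m H₀ Λ₁
  obtain ⟨ε', hε', hH⟩ := hH R₁ t n m k₀ (max B₁ B₀) θ Zσ Zε ε ht hθ hε
  obtain ⟨J₁, c₁⟩ := c₁ ε' hε'
  obtain ⟨J₀, c₀⟩ := c₀ ε' hε'
  refine ⟨max (max J₀ J₁) (t + R₁ + q.R), fun J' hJ' M _ Λ P fr T r H x y j a hs h0 hS hB h1 hc h2
    hfr r1 r2 r3 hMT p1 p2 p3 => ?_⟩
  have l1 : 8 * J' + 8 ≤ sc L J' := sc_ge hL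
  have l2 : t + R₁ + q.R ≤ J' := le_of_max_le_right hJ'
  have hs0 : Spins (dig Λ P t) r (Sum.elim (Fin.elim0 : Fin 0 → Site) y) := by
    have := h2.comp (f := Sum.map (Fin.elim0 : Fin 0 → Fin n) id)
      (Function.Injective.sumMap (fun i => i.elim0) Function.injective_id)
    have e : x ∘ (Fin.elim0 : Fin 0 → Fin n) = Fin.elim0 := funext fun i => i.elim0
    rwa [Sum.elim_comp_map, e, Function.comp_id] at this
  obtain ⟨d1, d2, d3⟩ := hΔ M (regOf M (dig Λ P t) fr)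
  exact hH J lam β q γ δ hJ hr hV x1 x2 hq hR M Λ P fr T r H a hs x y j (sc L J') h1 hc hfr p1
    (fun p hp p' hp' e => lt_of_le_of_lt (by omega) (p2 p hp p' hp' e)) p3 (by omega)
    (fun i => h2.ins (Sum.inl i) _ (by simp [zd_self]))
    (fun k => ⟨h2.ins (Sum.inr k) _ (by simp [zd_self]),
      h2.ins (Sum.inr k) _ ((zd_add_dir _ _).trans (by omega))⟩)
    (by exact_mod_cast (by omega : 0 < sc L J')) d1 d2 d3
    ((c₁ J' (le_of_max_le_right (le_of_max_le_left hJ')) M _ fr T r H x y j a hs h0 hS hB h1 h2 hfr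
      r1 r2 r3 hMT).monoB (le_max_left _ _))
    ((c₀ J' (le_of_max_le_left (le_of_max_le_left hJ')) M _ fr T r H Fin.elim0 y j a hs h0 hS hB h1
      hs0 (fun h => ⟨(hfr h).1, Even.zero⟩) r1 r2 r3 hMT).monoB (le_max_right _ _))

end ELat

end Vale.Agent.P144Z
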